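import Vale.Agent.P092.H414.Near2

/-!
# P092, Team D: the sum over the shells

A bound `C (1 + s)⁴` for one shell and one pivot column gives `C (1 + J)⁵` for all elements of
size at most `exp J`.
-/

open Matrix

namespace Vale.Agent.P092.H964

open Vale.Agent.P092.H414

theorem sum_shells {Ξ : Type*} (a : Ξ → SL3 → ℝ) (X : Ξ → ℝ) (ha : ∀ ξ g, 0 ≤ a ξ g)
    (hX : ∀ ξ, 0 ≤ X ξ) (Q : SL3 → Prop)
    (h1 : ∃ (C : ℝ) (s₀ : ℕ), ∀ s : ℕ, s₀ ≤ s → ∀ (j : Fin 3) (T : Finset SL3),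
      (∀ g ∈ T, Q g ∧ sn g = s ∧ ∃ i, Piv g i j) →
      ∀ ξ, ∑ g ∈ T, a ξ g ≤ C * (1 + s) ^ 4 * X ξ)
    (h2 : ∀ s : ℕ, ∃ N : ℕ, ∀ T : Finset SL3, (∀ g ∈ T, Q g ∧ sn g ≤ s) → T.card ≤ N)
    (h3 : ∃ C : ℝ, ∀ g, Q g → ∀ ξ, a ξ g ≤ C * X ξ) :
    ∃ C : ℝ, ∀ (J : ℕ) (T : Finset SL3), (∀ g ∈ T, Q g ∧ mx g.1 ≤ Real.exp J) →
      ∀ ξ, ∑ g ∈ T, a ξ g ≤ C * (1 + J) ^ 5 * X ξ := by
  classical
  obtain ⟨C1, s0, h1⟩ := h1
  obtain ⟨C3, h3⟩ := h3
  obtain ⟨N, h2⟩ := h2 s0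
  refine ⟨N * |C3| + 3 * |C1|, fun J T hT ξ => ?_⟩
  have hJ : (1 : ℝ) ≤ 1 + J := by
    have : (0 : ℝ) ≤ J := Nat.cast_nonneg J
    linarith
  have hX0 := hX ξ
  -- the pointwise splitting
  have hpt : ∀ g ∈ T, a ξ g ≤ (if sn g ≤ s0 then a ξ g else 0) +
      ∑ s ∈ Finset.range (J + 1), ∑ j : Fin 3,
        (if s0 ≤ s ∧ sn g = s ∧ ∃ i, Piv g i j then a ξ g else 0) := by
    intro g hg
    have hnn : ∀ s ∈ Finset.range (J + 1), 0 ≤ ∑ j : Fin 3,
        (if s0 ≤ s ∧ sn g = s ∧ ∃ i, Piv g i j then a ξ g else 0) := by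
      intro s _
      refine Finset.sum_nonneg fun j _ => ?_
      split_ifs
      · exact ha ξ g
      · exact le_rfl
    by_cases hs : sn g ≤ s0
    · rw [if_pos hs]
      have := Finset.sum_nonneg hnn
      linarith
    · rw [if_neg hs, zero_add]
      rw [not_le] at hs
      obtain ⟨i, j, hij⟩ := exists_piv g
      have hle : sn g ≤ J := sn_le (hT g hg).2
      have hmem : sn g ∈ Finset.range (J + 1) := Finset.mem_range.2 (Nat.lt_succ_of_le hle)
      refine le_trans ?_ (Finset.single_le_sum hnn hmem)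
      have hnn2 : ∀ k ∈ (Finset.univ : Finset (Fin 3)),
          0 ≤ (if s0 ≤ sn g ∧ sn g = sn g ∧ ∃ i, Piv g i k then a ξ g else 0) := by
        intro k _
        split_ifs
        · exact ha ξ g
        · exact le_rfl
      refine le_trans ?_ (Finset.single_le_sum hnn2 (Finset.mem_univ j))
      rw [if_pos ⟨hs.le, rfl, i, hij⟩]
  have hA : ∑ g ∈ T, (if sn g ≤ s0 then a ξ g else 0) ≤ N * |C3| * (1 + J) ^ 5 * X ξ := by
    rw [← Finset.sum_filter]
    have hcard := h2 (T.filter fun g => sn g ≤ s0) fun g hg =>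
      ⟨(hT g (Finset.mem_filter.1 hg).1).1, (Finset.mem_filter.1 hg).2⟩
    have hcard' : (((T.filter fun g => sn g ≤ s0).card : ℕ) : ℝ) ≤ N := by exact_mod_cast hcard
    have hb : ∀ g ∈ T.filter (fun g => sn g ≤ s0), a ξ g ≤ |C3| * X ξ := by
      intro g hg
      refine (h3 g (hT g (Finset.mem_filter.1 hg).1).1 ξ).trans ?_
      exact mul_le_mul_of_nonneg_right (le_abs_self _) hX0
    calc ∑ g ∈ T.filter (fun g => sn g ≤ s0), a ξ g
        ≤ ∑ _g ∈ T.filter (fun g => sn g ≤ s0), |C3| * X ξ := Finset.sum_le_sum hb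
      _ = ((T.filter fun g => sn g ≤ s0).card : ℝ) * (|C3| * X ξ) := by
          rw [Finset.sum_const, nsmul_eq_mul]
      _ ≤ N * (|C3| * X ξ) := by
          refine mul_le_mul_of_nonneg_right hcard' ?_
          exact mul_nonneg (abs_nonneg _) hX0
      _ = N * |C3| * 1 * X ξ := by ring
      _ ≤ N * |C3| * (1 + J) ^ 5 * X ξ := by
          have h5 : (1 : ℝ) ≤ (1 + (J : ℝ)) ^ 5 := one_le_pow₀ hJ
          gcongr
  have hB : ∑ g ∈ T, ∑ s ∈ Finset.range (J + 1), ∑ j : Fin 3,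
      (if s0 ≤ s ∧ sn g = s ∧ ∃ i, Piv g i j then a ξ g else 0) ≤
      3 * |C1| * (1 + J) ^ 5 * X ξ := by
    rw [Finset.sum_comm]
    have hs : ∀ s ∈ Finset.range (J + 1), ∑ g ∈ T, ∑ j : Fin 3,
        (if s0 ≤ s ∧ sn g = s ∧ ∃ i, Piv g i j then a ξ g else 0) ≤
        3 * |C1| * (1 + J) ^ 4 * X ξ := by
      intro s hs
      have hsJ : (s : ℝ) ≤ J := by
        have := Finset.mem_range.1 hs
        exact_mod_cast Nat.lt_succ_iff.1 this
      rw [Finset.sum_comm]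
      have hj : ∀ j ∈ (Finset.univ : Finset (Fin 3)), ∑ g ∈ T,
          (if s0 ≤ s ∧ sn g = s ∧ ∃ i, Piv g i j then a ξ g else 0) ≤
          |C1| * (1 + J) ^ 4 * X ξ := by
        intro j _
        rw [← Finset.sum_filter]
        by_cases h0 : s0 ≤ s
        · have h := h1 s h0 j (T.filter fun g => s0 ≤ s ∧ sn g = s ∧ ∃ i, Piv g i j)
            (fun g hg => by
              obtain ⟨hg1, hg2⟩ := Finset.mem_filter.1 hg
              exact ⟨(hT g hg1).1, hg2.2.1, hg2.2.2⟩) ξ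
          refine h.trans ?_
          have hs0 : (0 : ℝ) ≤ s := Nat.cast_nonneg s
          have h4 : (1 + (s : ℝ)) ^ 4 ≤ (1 + (J : ℝ)) ^ 4 := by gcongr
          have h4' : (0 : ℝ) ≤ (1 + (s : ℝ)) ^ 4 := by positivity
          calc C1 * (1 + (s : ℝ)) ^ 4 * X ξ ≤ |C1| * (1 + (s : ℝ)) ^ 4 * X ξ := by
                have := le_abs_self C1
                gcongr
            _ ≤ |C1| * (1 + (J : ℝ)) ^ 4 * X ξ := by gcongr
        · rw [Finset.sum_eq_zero]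
          · positivity
          · intro g hg
            exact absurd (Finset.mem_filter.1 hg).2.1 h0
      calc ∑ j : Fin 3, ∑ g ∈ T,
            (if s0 ≤ s ∧ sn g = s ∧ ∃ i, Piv g i j then a ξ g else 0)
          ≤ ∑ _j : Fin 3, |C1| * (1 + (J : ℝ)) ^ 4 * X ξ := Finset.sum_le_sum hj
        _ = 3 * |C1| * (1 + J) ^ 4 * X ξ := by
            rw [Finset.sum_const, Finset.card_univ, Fintype.card_fin, nsmul_eq_mul]
            push_cast
            ring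
    calc ∑ s ∈ Finset.range (J + 1), ∑ g ∈ T, ∑ j : Fin 3,
          (if s0 ≤ s ∧ sn g = s ∧ ∃ i, Piv g i j then a ξ g else 0)
        ≤ ∑ _s ∈ Finset.range (J + 1), 3 * |C1| * (1 + (J : ℝ)) ^ 4 * X ξ :=
          Finset.sum_le_sum hs
      _ = 3 * |C1| * (1 + J) ^ 5 * X ξ := by
          rw [Finset.sum_const, Finset.card_range, nsmul_eq_mul]
          push_cast
          ring
  calc ∑ g ∈ T, a ξ g ≤ ∑ g ∈ T, ((if sn g ≤ s0 then a ξ g else 0) +
      ∑ s ∈ Finset.range (J + 1), ∑ j : Fin 3,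
        (if s0 ≤ s ∧ sn g = s ∧ ∃ i, Piv g i j then a ξ g else 0)) := Finset.sum_le_sum hpt
    _ ≤ N * |C3| * (1 + J) ^ 5 * X ξ + 3 * |C1| * (1 + J) ^ 5 * X ξ := by
        rw [Finset.sum_add_distrib]
        exact add_le_add hA hB
    _ = (N * |C3| + 3 * |C1|) * (1 + J) ^ 5 * X ξ := by ring

/-- Finitely many elements of a discrete subgroup lie in the shells of index at most `s`. -/
theorem card_low (Γ : Subgroup SL3) [DiscreteTopology Γ] (s : ℕ) :
    ∃ N : ℕ, ∀ T : Finset SL3, (∀ g ∈ T, g ∈ Γ ∧ sn g ≤ s) → T.card ≤ N := by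
  classical
  have hfin := finite_inter (Γ := Γ) (Real.exp (s + 1))
  refine ⟨hfin.toFinset.card, fun T hT => Finset.card_le_card fun g hg => ?_⟩
  obtain ⟨h1, h2⟩ := hT g hg
  rw [Set.Finite.mem_toFinset]
  refine ⟨h1, fun i j => ?_⟩
  calc |g.1 i j| ≤ mx g.1 := le_mx _ _ _
    _ ≤ max 1 (mx g.1) := le_max_right _ _
    _ ≤ Real.exp (sn g + 1) := (mx_lt_exp g).le
    _ ≤ Real.exp (s + 1) := by
        apply Real.exp_le_exp.2
        have : (sn g : ℝ) ≤ s := by exact_mod_cast h2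
        linarith

/-- The hypothesis `h2` of `sum_shells` for any property implying membership in a discrete
subgroup. -/
theorem card_low_of (Γ : Subgroup SL3) [DiscreteTopology Γ] (Q : SL3 → Prop)
    (hQ : ∀ g, Q g → g ∈ Γ) (s : ℕ) :
    ∃ N : ℕ, ∀ T : Finset SL3, (∀ g ∈ T, Q g ∧ sn g ≤ s) → T.card ≤ N := by
  obtain ⟨N, hN⟩ := card_low Γ s
  exact ⟨N, fun T hT => hN T fun g hg => ⟨hQ g (hT g hg).1, (hT g hg).2⟩⟩

end Vale.Agent.P092.H964
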