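import Vale.Agent.P092.SD.Defs

/-!
P092, Team D (helper964): elementary incidence geometry of the plane in the letters of `SD`
(`inc3`, `NInc`, `CP`): the line through two points, points separated by a line, and the
separation lemma for supports. For helper68, helper632, helper596 (#5165).
-/

set_option linter.all false

open scoped LinearAlgebra.Projectivization
open TopologicalSpace Topology Projectivization

namespace Vale.Agent.P092.H964

open Vale.Agent.P092.SD
open Vale.Agent.P092.H820 (inc3 inc3_closed pj_surj)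

section alg

variable {k : Type} [NontriviallyNormedField k]

theorem inc_comm (x l : PP k) : (x, l) ∈ inc3 (k := k) ↔ (l, x) ∈ inc3 (k := k) :=
  orthogonal_comm

/-- two different points are on a line -/
theorem exists_line' (x y : PP k) (h : x ≠ y) :
    ∃ n : PP k, (x, n) ∈ inc3 (k := k) ∧ (y, n) ∈ inc3 (k := k) := by
  classical
  exact ⟨cross x y, orthogonal_cross_left h, orthogonal_cross_right h⟩

theorem ept_ne {i j : Fin 3} (h : i ≠ j) : ept k i ≠ ept k j := by
  classical
  intro he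
  have h1 : ¬ (ept k i, ept k i) ∈ inc3 (k := k) := by
    change ¬ ((Pi.single i 1 : Fin 3 → k) ⬝ᵥ Pi.single i 1 = 0)
    simp
  apply h1
  have h2 : (ept k i, ept k j) ∈ inc3 (k := k) := by
    change (Pi.single i 1 : Fin 3 → k) ⬝ᵥ Pi.single j 1 = 0
    simp [h]
  rwa [← he] at h2

theorem exists_ne_pt (x : PP k) : ∃ y : PP k, x ≠ y := by
  by_cases h : x = ept k 0
  · exact ⟨ept k 1, h ▸ ept_ne (by decide)⟩
  · exact ⟨ept k 0, h⟩

/-- any two points (equal or not) are on a line -/
theorem exists_line (x y : PP k) :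
    ∃ n : PP k, (x, n) ∈ inc3 (k := k) ∧ (y, n) ∈ inc3 (k := k) := by
  by_cases h : x = y
  · obtain ⟨z, hz⟩ := exists_ne_pt x
    obtain ⟨n, h1, h2⟩ := exists_line' x z hz
    exact ⟨n, h1, h ▸ h1⟩
  · exact exists_line' x y h

/-- any two lines (equal or not) have a point in common -/
theorem exists_point (l m : PP k) :
    ∃ x : PP k, (x, l) ∈ inc3 (k := k) ∧ (x, m) ∈ inc3 (k := k) := by
  obtain ⟨x, h1, h2⟩ := exists_line l m
  exact ⟨x, (inc_comm _ _).1 h1, (inc_comm _ _).1 h2⟩

/-- a point is not on some line -/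
theorem exists_line_not (x : PP k) : ∃ n : PP k, (x, n) ∉ inc3 (k := k) :=
  exists_not_self_orthogonal x

/-- a line misses some point -/
theorem exists_point_not (l : PP k) : ∃ x : PP k, (x, l) ∉ inc3 (k := k) :=
  exists_not_orthogonal_self l

theorem ne_of_inc {a b l : PP k} (ha : (a, l) ∈ inc3 (k := k)) (hb : (b, l) ∉ inc3 (k := k)) :
    a ≠ b := fun h => hb (h ▸ ha)

theorem ne_of_inc_line {a l m : PP k} (ha : (a, l) ∈ inc3 (k := k))
    (hb : (a, m) ∉ inc3 (k := k)) : l ≠ m := fun h => hb (h ▸ ha)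

theorem NInc.symm {A B : Set (PP k)} (h : NInc A B) : NInc B A :=
  fun x hx l hl hi => h l hl x hx ((inc_comm _ _).1 hi)

theorem NInc.mono {A A' B B' : Set (PP k)} (h : NInc A B) (hA : A' ⊆ A) (hB : B' ⊆ B) :
    NInc A' B' := fun x hx l hl => h x (hA hx) l (hB hl)

end alg

section top

variable {k : Type} [NontriviallyNormedField k] [ProperSpace k]

/-- the points on the lines of a closed set of lines form a closed set -/
theorem closed_on {B : Set (PP k)} (hB : IsClosed B) :
    IsClosed {x : PP k | ∃ l ∈ B, (x, l) ∈ inc3 (k := k)} := by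
  have h1 : IsCompact ((inc3 (k := k)) ∩ (Set.univ ×ˢ B)) :=
    (inc3_closed.inter (isClosed_univ.prod hB)).isCompact
  have h2 : IsClosed (Prod.fst '' ((inc3 (k := k)) ∩ (Set.univ ×ˢ B))) :=
    (h1.image continuous_fst).isClosed
  convert h2 using 1
  ext x
  constructor
  · rintro ⟨l, hl, hi⟩
    exact ⟨(x, l), ⟨hi, Set.mem_univ _, hl⟩, rfl⟩
  · rintro ⟨⟨y, l⟩, ⟨hi, -, hl⟩, rfl⟩
    exact ⟨l, hl, hi⟩

/-- separation of a closed set of points from a closed set and from a closed set of lines -/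
theorem sep_closed {U V B : Set (PP k)} (hU : IsClosed U) (hV : IsClosed V) (hB : IsClosed B)
    (h1 : Disjoint U V) (h2 : NInc U B) :
    ∃ A : Set (PP k), IsOpen A ∧ U ⊆ A ∧ Disjoint (closure A) V ∧ NInc (closure A) B := by
  have hC : IsClosed (V ∪ {x : PP k | ∃ l ∈ B, (x, l) ∈ inc3 (k := k)}) :=
    hV.union (closed_on hB)
  have hsub : U ⊆ (V ∪ {x : PP k | ∃ l ∈ B, (x, l) ∈ inc3 (k := k)})ᶜ := by
    intro x hx hx'
    rcases hx' with h | ⟨l, hl, hi⟩
    · exact (Set.disjoint_left.1 h1) hx h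
    · exact h2 x hx l hl hi
  obtain ⟨A, hA, hUA, hcl⟩ := normal_exists_closure_subset hU hC.isOpen_compl hsub
  refine ⟨A, hA, hUA, ?_, ?_⟩
  · rw [Set.disjoint_left]
    intro x hx hv
    exact hcl hx (Or.inl hv)
  · intro x hx l hl hi
    exact hcl hx (Or.inr ⟨l, hl, hi⟩)

theorem sep_open (u f h : CP k) (h1 : Disjoint (tsupport u) (tsupport f))
    (h2 : NInc (tsupport u) (tsupport h)) :
    ∃ A : Set (PP k), IsOpen A ∧ tsupport u ⊆ A ∧ Disjoint (closure A) (tsupport f) ∧
      NInc (closure A) (tsupport h) :=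
  sep_closed (isClosed_tsupport _) (isClosed_tsupport _) (isClosed_tsupport _) h1 h2

/-- both sides of a non-incident pair can be enlarged -/
theorem sep_pair {U B : Set (PP k)} (hU : IsClosed U) (hB : IsClosed B) (h2 : NInc U B) :
    ∃ A A' : Set (PP k), IsOpen A ∧ IsOpen A' ∧ U ⊆ A ∧ B ⊆ A' ∧
      NInc (closure A) (closure A') := by
  obtain ⟨A, hA, hUA, -, hN⟩ := sep_closed hU isClosed_empty hB (Set.disjoint_empty _) h2
  obtain ⟨A', hA', hBA, -, hN'⟩ := sep_closed hB isClosed_empty isClosed_closure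
    (Set.disjoint_empty _) (NInc.symm hN)
  exact ⟨A, A', hA, hA', hUA, hBA, NInc.symm hN'⟩

end top

end Vale.Agent.P092.H964
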